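import Vale.Agent.N319P.Defs
import Vale.Agent.P319.Main

/-!
The list of irreducible factors and the list of roots over a prime field.
-/

namespace Vale.Agent.N319P

open Polynomial
open Vale.Agent.Lib.PolyTime hiding C P
open Vale.Agent.Lib.Dep Vale.Agent.P319

theorem pair_eq (x y : List Bool) : pair x y = pr x y := by
  induction x with
  | nil => rfl
  | cons b x ih => rw [pr, ← ih]; rfl

theorem nums_eq (l : List ℕ) : nums l = enc l := by
  induction l with
  | nil => rfl
  | cons a l ih => rw [enc_cons, ← ih, ← pair_eq]; rfl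

theorem rows_eq (l : List (List ℕ)) : rows l = enc l := by
  induction l with
  | nil => rfl
  | cons a l ih => rw [enc_cons, ← ih, ← nums_eq, ← pair_eq]; rfl

theorem polyTime_of {g : Word → Word} (hg : FP ∅ g) : PolyTime g :=
  exists_tm2_of_polyTimeFun id id g g (polyTimeFun_iff.2 hg) fun _ => rfl

theorem enc_map {κ μ : Type} [Enc κ] [Enc μ] (φ : κ → μ) (h : ∀ x, enc (φ x) = enc x)
    (l : List κ) : enc (l.map φ) = enc l := by
  induction l with
  | nil => rfl
  | cons a l ih => rw [List.map_cons, enc_cons, enc_cons, ih, h]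

theorem enc_coeffs {q : ℕ} [NeZero q] (f : (ZMod q)[X]) : enc (coeffs f) = enc f := by
  rw [enc_poly, ← enc_map ZMod.val (fun _ => rfl) (toL f), toL, List.map_map]
  rfl

theorem exists_factors : ∃ F : ∀ x : Inp, List (ZMod x.1.1)[X], DPT F ∧
    ∀ x : Inp, C x.2.leadingCoeff * (F x).prod = x.2 ∧ ∀ g ∈ F x, g.Monic ∧ Irreducible g := by
  obtain ⟨c, hc⟩ := Alg.exists_ellOk NT.smallPrime
  refine ⟨fun x => Alg.factorAll c (Alg.splitR 1 (Crv.curveP x.1.1)) x.2, ?_, fun x =>
    Alg.factorAll_spec hc (Alg.splitR_spec (Crv.curveP_spec Crv.curveSt)) x.2⟩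
  have h1 := DPT.fn3 (fun (q : Pr) (h g m : (ZMod q.1)[X]) =>
    Crv.curveP q.1 m.natDegree.minFac h g m) Crv.dpt_curveP_prime
  refine Alg.dpt_factorAll c (by fun_prop) ?_ (by fun_prop)
  exact Alg.dpt_splitR 1 (by fun_prop) (by fun_prop) (by fun_prop) (by fun_prop)

open UniqueFactorizationMonoid in
theorem factor_goal : ∃ F, PolyTime F ∧ ∀ (p : ℕ) [Fact p.Prime] (f : (ZMod p)[X]), f ≠ 0 →
    (pair p.bits (nums (coeffs f))).length ≤ 10 * ((f.natDegree + 1) * Nat.clog 2 p) ∧
    ∃ L : List (ZMod p)[X], (L : Multiset (ZMod p)[X]) = normalizedFactors f ∧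
      F (pair p.bits (nums (coeffs f))) = rows (L.map coeffs) := by
  obtain ⟨F, ⟨g, hg, h⟩, hF⟩ := exists_factors
  refine ⟨g, polyTime_of hg, fun p hp f hf => ?_⟩
  let x : Inp := ⟨⟨p, hp.out⟩, f⟩
  have e : pair p.bits (nums (coeffs f)) = enc x := by
    rw [pair_eq, nums_eq, enc_coeffs]
    rfl
  obtain ⟨h1, h2⟩ := hF x
  refine ⟨e ▸ esize_inp_le x, F x, ?_, ?_⟩
  · have h3 : Associated (F x).prod f := by
      conv_rhs => rw [show f = C x.2.leadingCoeff * (F x).prod from h1.symm]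
      exact (associated_isUnit_mul_right_iff
        (isUnit_C.2 (leadingCoeff_ne_zero.2 hf).isUnit)).2 (Associated.refl _)
    rw [← h3.normalizedFactors_eq, ← Multiset.prod_coe,
      normalizedFactors_prod_eq _ fun a ha => (h2 a ha).2]
    exact ((Multiset.map_congr rfl fun a ha => (h2 a ha).1.normalize_eq_self).trans
      (Multiset.map_id' _)).symm
  · rw [e, h, rows_eq, enc_map coeffs enc_coeffs]

theorem mem_collect' {κ : Type} {l : List κ} {x : κ} (h : x ∈ l) :
    x ∈ (collect l).map Prod.fst := by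
  rw [collect, List.map_map]
  exact List.mem_map.2 ⟨x, ((collect_aux _ [] List.nodup_nil).2 x).2 (Or.inl h), rfl⟩

theorem exists_roots : ∃ R : ∀ x : Inp, List (ZMod x.1.1), DPT R ∧
    ∀ x : Inp, (R x).Nodup ∧ (∀ r ∈ R x, x.2.IsRoot r) ∧
      (x.2 ≠ 0 → ∀ r, x.2.IsRoot r → r ∈ R x) := by
  classical
  obtain ⟨F, hF, h⟩ := exists_factors
  refine ⟨fun x => (collect (((F x).map fun g => - g.coeff 0).filter fun r =>
    decide (x.2.eval r = 0))).map Prod.fst, by fun_prop, fun x => ⟨collect_nodup _, fun r hr => ?_,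
      fun hx r hr => ?_⟩⟩
  · obtain ⟨q, hq, rfl⟩ := List.mem_map.1 hr
    exact of_decide_eq_true (List.mem_filter.1 (mem_collect hq).1).2
  · have h1 : (F x).prod.IsRoot r := by
      rw [← (h x).1, root_mul, IsRoot.def, eval_C] at hr
      exact hr.resolve_left (leadingCoeff_ne_zero.2 hx)
    obtain ⟨g, hg, h2⟩ : ∃ g ∈ F x, X - C r ∣ g :=
      (prime_X_sub_C r).dvd_prod_iff.1 (dvd_iff_isRoot.2 h1)
    have h3 : X - C r = g := eq_of_monic_of_associated (monic_X_sub_C r) ((h x).2 g hg).1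
      ((irreducible_X_sub_C r).associated_of_dvd ((h x).2 g hg).2 h2)
    refine mem_collect' (List.mem_filter.2 ⟨List.mem_map.2 ⟨g, hg, ?_⟩, decide_eq_true hr⟩)
    rw [← h3]
    simp

end Vale.Agent.N319P
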