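import Vale.Agent.N319P.Lift

/-!
Representation of a prime by the form `x ^ 2 + d y ^ 2`.
-/

namespace Vale.Agent.N319P

open Polynomial List
open Vale.Agent.Lib.PolyTime hiding C P
open Vale.Agent.Lib.Dep Vale.Agent.P319

/-- one step of the extended Euclidean algorithm -/
def eu (p : ℕ) (s : ℕ × ℕ × ℕ × ℕ) : ℕ × ℕ × ℕ × ℕ :=
  if s.2.1 * s.2.1 < p then s else (s.2.1, s.1 % s.2.1, s.2.2.2, s.2.2.1 + s.1 / s.2.1 * s.2.2.2)

/-- the first remainder below the square root of `p` -/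
def run (p r : ℕ) : ℕ × ℕ × ℕ × ℕ := (eu p)^[2 * Nat.size p] (p, r % p, 0, 1)

/-- the size invariant -/
def InvA (p : ℕ) (s : ℕ × ℕ × ℕ × ℕ) : Prop :=
  s.1 * s.2.2.2 + s.2.1 * s.2.2.1 = p ∧ p ≤ s.1 * s.1 ∧ s.2.1 ≤ s.1 ∧ s.1 ≤ p ∧ s.2.2.1 ≤ s.2.2.2

/-- the congruence invariant -/
def InvB (p d : ℕ) (s : ℕ × ℕ × ℕ × ℕ) : Prop :=
  (s.1 : ZMod p) ^ 2 + d * s.2.2.1 ^ 2 = 0 ∧ (s.2.1 : ZMod p) ^ 2 + d * s.2.2.2 ^ 2 = 0 ∧
    (s.1 : ZMod p) * s.2.1 = d * s.2.2.1 * s.2.2.2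

theorem InvA.step {p : ℕ} (hp : 0 < p) {s : ℕ × ℕ × ℕ × ℕ} (h : InvA p s) : InvA p (eu p s) := by
  obtain ⟨a, b, c, e⟩ := s
  unfold eu
  split_ifs with h0
  · exact h
  · obtain ⟨h1, h2, h3, h4, h5⟩ := h
    simp only at h0 h1 h2 h3 h4 h5
    have hb : 0 < b := Nat.pos_of_ne_zero (by rintro rfl; omega)
    have h6 := Nat.div_add_mod a b
    have h7 := Nat.div_pos h3 hb
    refine ⟨?_, not_lt.1 h0, (Nat.mod_lt _ hb).le, h3.trans h4, ?_⟩
    · change b * (c + a / b * e) + a % b * e = p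
      rw [← h1]
      conv_rhs => rw [← h6]
      ring
    · exact le_add_left (Nat.le_mul_of_pos_left _ h7)

theorem InvB.step {p d : ℕ} {s : ℕ × ℕ × ℕ × ℕ} (h : InvB p d s) : InvB p d (eu p s) := by
  obtain ⟨a, b, c, e⟩ := s
  unfold eu
  split_ifs with h0
  · exact h
  · obtain ⟨h1, h2, h3⟩ := h
    simp only at h1 h2 h3
    have h4 : ((a % b : ℕ) : ZMod p) = a - b * (a / b : ℕ) := by
      rw [eq_sub_iff_add_eq, add_comm, ← Nat.cast_mul, ← Nat.cast_add, Nat.div_add_mod]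
    refine ⟨h2, ?_, ?_⟩
    · simp only [h4, Nat.cast_add, Nat.cast_mul]
      linear_combination h1 - 2 * ((a / b : ℕ) : ZMod p) * h3 + ((a / b : ℕ) : ZMod p) ^ 2 * h2
    · simp only [h4, Nat.cast_add, Nat.cast_mul]
      linear_combination h3 - ((a / b : ℕ) : ZMod p) * h2

theorem invA_iter {p : ℕ} (hp : 0 < p) (r j : ℕ) : InvA p ((eu p)^[j] (p, r % p, 0, 1)) := by
  induction j with
  | zero => exact ⟨by simp, Nat.le_mul_self p, (Nat.mod_lt _ hp).le, le_rfl, Nat.zero_le _⟩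
  | succ j ih =>
    rw [Function.iterate_succ_apply']
    exact ih.step hp

theorem halve {p : ℕ} (hp : 0 < p) (r j : ℕ) : ∀ s, s = (eu p)^[j] (p, r % p, 0, 1) →
    s.2.1 * s.2.1 < p ∨ s.1 * s.2.1 * 2 ^ j ≤ p * p := by
  induction j with
  | zero =>
    rintro _ rfl
    exact Or.inr (by simpa using Nat.mul_le_mul_left p (Nat.mod_lt r hp).le)
  | succ j ih =>
    rintro _ rfl
    rw [Function.iterate_succ_apply']
    have h1 := ih _ rfl
    have h2 := (invA_iter hp r j).2.2.1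
    generalize (eu p)^[j] (p, r % p, 0, 1) = s at h1 h2
    obtain ⟨a, b, c, e⟩ := s
    unfold eu
    split_ifs with h0
    · exact Or.inl h0
    · simp only at h0 h1 h2 ⊢
      have hb : 0 < b := Nat.pos_of_ne_zero (by rintro rfl; omega)
      have h3 := Nat.mod_lt a hb
      have h4 := Nat.div_add_mod a b
      have h5 := Nat.le_mul_of_pos_right b (Nat.div_pos h2 hb)
      refine Or.inr (le_trans ?_ (h1.resolve_left h0))
      calc b * (a % b) * 2 ^ (j + 1) = 2 * (a % b) * b * 2 ^ j := by ring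
        _ ≤ a * b * 2 ^ j := by gcongr; omega

theorem run_lt {p : ℕ} (hp : 0 < p) (r : ℕ) : (run p r).2.1 * (run p r).2.1 < p := by
  refine (halve hp r _ (run p r) rfl).elim id fun h => ?_
  have h1 := (invA_iter hp r (2 * Nat.size p)).2.2.1
  have h2 : p * p < 2 ^ (2 * Nat.size p) := by
    rw [two_mul, pow_add]
    exact Nat.mul_lt_mul'' (Nat.lt_size_self p) (Nat.lt_size_self p)
  have h3 : (run p r).1 * (run p r).2.1 = 0 := by
    by_contra h4
    have := Nat.le_mul_of_pos_left (2 ^ (2 * Nat.size p)) (Nat.pos_of_ne_zero h4)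
    omega
  have h4 : (run p r).2.1 = 0 := by
    rcases Nat.mul_eq_zero.1 h3 with h5 | h5
    · exact Nat.le_zero.1 (h5 ▸ h1)
    · exact h5
  rwa [h4]

theorem mul_lt_of_sq {p x y : ℕ} (hx : x * x ≤ p) (hy : y * y < p) : x * y < p := by
  by_contra h
  have h1 := Nat.mul_self_le_mul_self (not_lt.1 h)
  have h2 : x * x * (y * y) ≤ p * (y * y) := Nat.mul_le_mul_right _ hx
  have h3 : p * (y * y) < p * p := Nat.mul_lt_mul_of_pos_left hy (by omega)
  have h4 : x * y * (x * y) = x * x * (y * y) := by ring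
  omega

theorem corn {p d a b r0 r t0 t : ℕ} (hp : p.Prime) (hA : InvA p (r0, r, t0, t))
    (hB : (r : ZMod p) ^ 2 + d * t ^ 2 = 0) (hr : r * r < p) (h : a ^ 2 + d * b ^ 2 = p)
    (ha : a ≠ 0) : (r = a ∧ t = b) ∨ (t = a ∧ r / d = b) := by
  have := Fact.mk hp
  obtain ⟨h1, h2, -, -, h3⟩ := hA
  simp only at h1 h2 h3
  have nsq : ∀ x, x * x ≠ p := fun x e => hp.prime.not_isSquare ⟨x, e.symm⟩
  have hd : d * b ^ 2 ≠ 0 := fun e => nsq a (by rw [← h, e]; ring)
  have hd0 : 0 < d := Nat.pos_of_ne_zero (left_ne_zero_of_mul hd)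
  have hb0 : b ≠ 0 := by rintro rfl; simp at hd
  have ht : t * t < p := by
    refine lt_of_le_of_ne (Nat.le_of_mul_le_mul_left ?_ hp.pos) (nsq t)
    calc p * (t * t) ≤ r0 * r0 * (t * t) := Nat.mul_le_mul_right _ h2
      _ = r0 * t * (r0 * t) := by ring
      _ ≤ p * p := Nat.mul_self_le_mul_self (by omega)
  have ht0 : t ≠ 0 := by
    rintro rfl
    have := hp.pos
    rw [Nat.le_zero.1 h3] at h1
    omega
  have h4 : a * t < p := mul_lt_of_sq (by rw [← sq]; omega) ht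
  have h5 : b * r < p := mul_lt_of_sq (by
    have := Nat.le_mul_of_pos_left (b ^ 2) hd0
    rw [← sq]
    omega) hr
  have h6 : (a : ZMod p) ^ 2 + d * b ^ 2 = 0 := by
    exact_mod_cast (congrArg Nat.cast h).trans (ZMod.natCast_self p)
  have h7 : ((a * t : ℕ) : ZMod p) ^ 2 = ((b * r : ℕ) : ZMod p) ^ 2 := by
    push_cast
    linear_combination (t : ZMod p) ^ 2 * h6 - (b : ZMod p) ^ 2 * hB
  rcases sq_eq_sq_iff_eq_or_eq_neg.1 h7 with h8 | h8
  · have h9 : a * t = b * r :=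
      ((ZMod.natCast_eq_natCast_iff _ _ _).1 h8).eq_of_lt_of_lt h4 h5
    have hc : a.Coprime b := Nat.isUnit_iff.1 (hp.prime.squarefree _ (by
      rw [← h, sq, sq]
      exact dvd_add (mul_dvd_mul (Nat.gcd_dvd_left a b) (Nat.gcd_dvd_left a b))
        (Dvd.dvd.mul_left (mul_dvd_mul (Nat.gcd_dvd_right a b) (Nat.gcd_dvd_right a b)) d)))
    obtain ⟨w, rfl⟩ : a ∣ r := hc.dvd_of_dvd_mul_left ⟨t, h9.symm⟩
    obtain rfl : t = b * w := Nat.eq_of_mul_eq_mul_left (Nat.pos_of_ne_zero ha) (by rw [h9]; ring)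
    rcases (Nat.dvd_prime hp).1 (⟨r0 * b + a * t0, by rw [← h1]; ring⟩ : w ∣ p) with rfl | rfl
    · exact Or.inl ⟨mul_one a, mul_one b⟩
    · have h10 := Nat.le_mul_of_pos_left w (Nat.pos_of_ne_zero ha)
      have := Nat.le_mul_self (a * w)
      omega
  · have h9 : a * t + b * r = p := by
      rw [eq_neg_iff_add_eq_zero, ← Nat.cast_add, ZMod.natCast_eq_zero_iff] at h8
      have := Nat.mul_pos (Nat.pos_of_ne_zero ha) (Nat.pos_of_ne_zero ht0)
      exact Nat.eq_of_dvd_of_lt_two_mul (by omega) h8 (by omega)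
    have e1 : (a : ℤ) * t + b * r = p := by exact_mod_cast h9
    have e2 : (a : ℤ) ^ 2 + d * b ^ 2 = p := by exact_mod_cast h
    have e3 : (r : ℤ) * r < p := by exact_mod_cast hr
    have e4 : (t : ℤ) * t < p := by exact_mod_cast ht
    have e5 : (0 : ℤ) < d := by exact_mod_cast hd0
    have e6 : (0 : ℤ) < p := by exact_mod_cast hp.pos
    have e7 : ((a : ℤ) * r - d * b * t) ^ 2 = p * (r ^ 2 + d * t ^ 2 - d * p) := by
      linear_combination ((r : ℤ) ^ 2 + d * t ^ 2) * e2 - d * (a * t + b * r + p) * e1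
    have e8 : (a : ℤ) * r - d * b * t = 0 := by
      refine Int.eq_zero_of_abs_lt_dvd
        ((Nat.prime_iff_prime_int.1 hp).dvd_of_dvd_pow (n := 2) ⟨_, e7⟩) ?_
      refine abs_lt_of_sq_lt_sq ?_ e6.le
      rw [e7, sq (p : ℤ)]
      exact mul_lt_mul_of_pos_left (by nlinarith) e6
    have e9 : (p : ℤ) * (t - a) = 0 := by
      linear_combination (-(t : ℤ)) * e2 + a * e1 + b * (-1) * e8 + 0 * e2
    have e10 : t = a := by
      have := (mul_eq_zero.1 e9).resolve_left e6.ne'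
      omega
    subst e10
    have e11 : (t : ℤ) * (r - d * b) = 0 := by linear_combination e8
    have e12 : r = d * b := by
      have := (mul_eq_zero.1 e11).resolve_left (by exact_mod_cast ht0)
      exact_mod_cast sub_eq_zero.1 this
    exact Or.inr ⟨rfl, by rw [e12, Nat.mul_div_cancel_left _ hd0]⟩

/-- the candidates -/
noncomputable def cands (R : Rt) (p : Pr) (d : ℕ) : List (ℕ × ℕ) :=
  (0, 1) :: (R ⟨p, X ^ 2 + C (d : ZMod p.1)⟩).flatMap fun r =>
    [((run p.1 r.val).2.1, (run p.1 r.val).2.2.2),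
      ((run p.1 r.val).2.2.2, (run p.1 r.val).2.1 / d)]

theorem cands_spec {R : Rt} (hR : R.Ok) {p : Pr} {d a b : ℕ} (h : a ^ 2 + d * b ^ 2 = p.1) :
    (a, b) ∈ cands R p d := by
  by_cases ha : a = 0
  · subst ha
    have h1 : b = 1 := Nat.isUnit_iff.1 (p.2.prime.squarefree b ⟨d, by rw [← h]; ring⟩)
    exact h1 ▸ mem_cons_self
  · have h1 : (a : ZMod p.1) ^ 2 + d * b ^ 2 = 0 := by
      exact_mod_cast (congrArg Nat.cast h).trans (ZMod.natCast_self p.1)
    have h2 : (b : ZMod p.1) ≠ 0 := fun e => by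
      rw [e, zero_pow two_ne_zero, mul_zero, add_zero, pow_eq_zero_iff two_ne_zero,
        ZMod.natCast_eq_zero_iff] at h1
      have h3 := Nat.le_of_dvd (Nat.pos_of_ne_zero ha) h1
      have h4 := p.2.two_le
      nlinarith [Nat.zero_le (d * b ^ 2)]
    have h3 : ((a : ZMod p.1) / b) ^ 2 + d = 0 := by
      field_simp
      linear_combination h1
    have h4 : (a : ZMod p.1) / b ∈ R ⟨p, X ^ 2 + C (d : ZMod p.1)⟩ :=
      (hR ⟨p, _⟩).2.2 (X_pow_add_C_ne_zero two_pos _) _ (by simpa using h3)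
    have h5 : ∀ j, InvB p.1 d ((eu p.1)^[j] (p.1, ((a : ZMod p.1) / b).val % p.1, 0, 1)) := by
      intro j
      induction j with
      | zero => exact ⟨by simp, by simpa using h3, by simp⟩
      | succ j ih =>
        rw [Function.iterate_succ_apply']
        exact ih.step
    refine mem_cons_of_mem _ (mem_flatMap.2 ⟨_, h4, ?_⟩)
    rcases corn p.2 (invA_iter p.2.pos _ _) (h5 _).2.1 (run_lt p.2.pos _) h ha with h6 | h6
    · exact mem_cons.2 (Or.inl (Prod.ext h6.1.symm h6.2.symm))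
    · exact mem_cons_of_mem _ (mem_singleton.2 (Prod.ext h6.1.symm h6.2.symm))

theorem dpt_run {α : Type} [Enc α] {q : α → Pr} {r : α → ℕ} (hq : DPT q) (hr : DPT r) :
    DPT fun a => run (q a).1 (r a) := by
  refine DPT.iterate (by fun_prop) (by fun_prop) (by fun_prop) (by unfold eu; fun_prop)
    (b := fun a => 7 * esize (q a) + 3) (by fun_prop) fun a j _ => ?_
  obtain ⟨h1, h2, h3, h4, h5⟩ := invA_iter (q a).2.pos (r a) j
  generalize (eu (q a).1)^[j] ((q a).1, r a % (q a).1, 0, 1) = s at h1 h2 h3 h4 h5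
  obtain ⟨x, y, z, w⟩ := s
  simp only at h1 h2 h3 h4 h5
  have h6 : 0 < x := Nat.pos_of_ne_zero (by rintro rfl; have := (q a).2.pos; omega)
  have h7 := Nat.le_mul_of_pos_left w h6
  have e1 : esize x ≤ esize (q a) := esize_nat_mono h4
  have e2 : esize y ≤ esize (q a) := esize_nat_mono (h3.trans h4)
  have e3 : esize z ≤ esize (q a) := esize_nat_mono (show z ≤ (q a).1 by omega)
  have e4 : esize w ≤ esize (q a) := esize_nat_mono (show w ≤ (q a).1 by omega)
  rw [esize_pair, esize_pair, esize_pair]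
  omega

theorem corn_goal : ∃ F, PolyTime F ∧ ∀ p d : ℕ, p.Prime →
    (∃ x y, F (pair p.bits d.bits) = nums [x, y] ∧ x ^ 2 + d * y ^ 2 = p) ∨
    (F (pair p.bits d.bits) = nums [] ∧ ∀ x y : ℤ, x ^ 2 + d * y ^ 2 ≠ p) := by
  obtain ⟨R, hR, hR'⟩ := exists_roots
  have h1 : DPT fun x : Pr × ℕ => R ⟨x.1, X ^ 2 + C (x.2 : ZMod x.1.1)⟩ :=
    hR.comp (DPT.smk (by fun_prop) (by fun_prop))
  have h2 : DPT fun x : Pr × ℕ => cands R x.1 x.2 := by
    have h3 : DPT fun y : Σ x : Pr × ℕ, {r // r ∈ R ⟨x.1, X ^ 2 + C (x.2 : ZMod x.1.1)⟩} =>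
        run y.1.1.1 y.2.1.val := dpt_run (DPT.fst DPT.id.sfst)
          (DPT.zmodVal (p := fun y : Σ x : Pr × ℕ, _ => y.1.1.1) DPT.ssnd.val)
    exact DPT.cons (DPT.const _) (DPT.flatMap h1 (DPT.cons (h3.snd.fst.pair h3.snd.snd.snd)
      (DPT.cons (h3.snd.snd.snd.pair (DPT.natDiv h3.snd.fst (DPT.snd DPT.id.sfst))) DPT.nil)))
  obtain ⟨g, hg, h⟩ : DPT fun x : Pr × ℕ => (((cands R x.1 x.2).filter fun e =>
      decide (e.1 * e.1 + x.2 * (e.2 * e.2) = x.1.1)).take 1).flatMap fun e => [e.1, e.2] := by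
    clear hR h1
    fun_prop
  refine ⟨g, polyTime_of hg, fun p d hp => ?_⟩
  have h4 := h (⟨p, hp⟩, d)
  rw [pair_eq]
  simp only at h4
  cases e : (cands R ⟨p, hp⟩ d).filter fun e => decide (e.1 * e.1 + d * (e.2 * e.2) = p) with
  | nil =>
    refine Or.inr ⟨h4.trans (by rw [e]; rfl), fun x y hxy => ?_⟩
    have h5 : x.natAbs ^ 2 + d * y.natAbs ^ 2 = p := by
      zify
      rwa [sq_abs, sq_abs]
    refine filter_eq_nil_iff.1 e _ (cands_spec (p := ⟨p, hp⟩) hR' h5) (decide_eq_true ?_)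
    rwa [sq, sq] at h5
  | cons z l =>
    have h5 := (mem_filter.1 (e ▸ mem_cons_self : z ∈ _)).2
    exact Or.inl ⟨z.1, z.2, h4.trans (by rw [e, nums_eq]; rfl),
      by rw [sq, sq]; exact of_decide_eq_true h5⟩

end Vale.Agent.N319P
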