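import Mathlib.Computability.TuringMachine.Computable
import Mathlib.Algebra.Polynomial.Degree.Defs
import Mathlib.Data.ZMod.Basic
import Mathlib.Data.Nat.Bits

/-!
Polynomial time functions on binary words, and codes of numbers, lists and polynomials.
-/

namespace Vale.Agent.N319P

/-- The function is computed in polynomial time by a deterministic Turing machine with finite
alphabets. -/
def PolyTime (F : List Bool → List Bool) : Prop :=
  ∃ M : Turing.TM2ComputableInPolyTime id id F, ∀ k, Finite (M.tm.Γ k)

/-- The code of a pair: every bit of `x` is preceded by a one, then a zero, then `y`. -/
def pair (x y : List Bool) : List Bool := (x.flatMap fun b => [true, b]) ++ false :: y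

/-- The code of a list of numbers, in binary. -/
def nums (l : List ℕ) : List Bool := l.foldr (fun a w => pair a.bits w) []

/-- The code of a list of lists of numbers. -/
def rows (l : List (List ℕ)) : List Bool := l.foldr (fun a w => pair (nums a) w) []

/-- The dense list of coefficients, constant term first, as numbers below `q`. -/
def coeffs {q : ℕ} (f : Polynomial (ZMod q)) : List ℕ :=
  (List.range (f.natDegree + 1)).map fun i => (f.coeff i).val

end Vale.Agent.N319P
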