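import Vale.Agent.N319P.Base

/-!
All roots of a polynomial modulo a prime power.
-/

namespace Vale.Agent.N319P

open Polynomial List
open Vale.Agent.Lib.PolyTime hiding C P
open Vale.Agent.Lib.Dep Vale.Agent.P319

/-- the type of root finders -/
abbrev Rt : Type := ∀ x : Inp, List (ZMod x.1.1)

/-- correctness of a root finder -/
def Rt.Ok (R : Rt) : Prop :=
  ∀ x : Inp, (R x).Nodup ∧ (∀ r ∈ R x, x.2.IsRoot r) ∧ (x.2 ≠ 0 → ∀ r, x.2.IsRoot r → r ∈ R x)

/-- a polynomial time root finder -/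
def Rt.Fast (R : Rt) : Prop := DPT (fun x : Inp => R x)

variable {p : Pr} {k : ℕ}

/-- the polynomial `f (a + p ^ j x)` -/
noncomputable def sh (f : (ZMod (p.1 ^ k))[X]) (a j : ℕ) : (ZMod (p.1 ^ k))[X] :=
  f.comp (C (a : ZMod (p.1 ^ k)) + C ((p.1 ^ j : ℕ) : ZMod (p.1 ^ k)) * X)

open Classical in
/-- the exponent of the content -/
noncomputable def ex (h : (ZMod (p.1 ^ k))[X]) : ℕ :=
  ((range k).find? fun t => decide (¬ ∀ c ∈ toL h, p.1 ^ (t + 1) ∣ c.val)).getD 0

/-- the primitive part modulo `p` -/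
noncomputable def red (h : (ZMod (p.1 ^ k))[X]) : (ZMod p.1)[X] :=
  ofL ((toL h).map fun c => ((c.val / p.1 ^ ex h : ℕ) : ZMod p.1))

open Classical in
/-- the classes modulo `p ^ (j + 1)` above the class of `a` which remain -/
noncomputable def kids (R : Rt) (f : (ZMod (p.1 ^ k))[X]) (j a : ℕ) : List ℕ :=
  if sh f a j = 0 then [] else (R ⟨p, red (sh f a j)⟩).map fun r => a + p.1 ^ j * r.val

/-- the classes modulo `p ^ j` which are visited -/
noncomputable def act (R : Rt) (f : (ZMod (p.1 ^ k))[X]) (j : ℕ) : List ℕ :=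
  (range j).foldl (fun A i => A.flatMap (kids R f i)) [0]

open Classical in
/-- the classes of roots -/
noncomputable def out (R : Rt) (f : (ZMod (p.1 ^ k))[X]) : List (ℕ × ℕ) :=
  (range (k + 1)).flatMap fun j =>
    ((act R f j).filter fun a => decide (sh f a j = 0)).map fun a => (a, j)

theorem act_succ (R : Rt) (f : (ZMod (p.1 ^ k))[X]) (j : ℕ) :
    act R f (j + 1) = (act R f j).flatMap (kids R f j) := by
  rw [act, range_succ, foldl_append]
  rfl

/-- reduction modulo `p` -/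
def piH (hk : k ≠ 0) : ZMod (p.1 ^ k) →+* ZMod p.1 :=
  ZMod.castHom (dvd_pow_self p.1 hk) (ZMod p.1)

theorem cancel (hk : k ≠ 0) {s t : ℕ} (hs : s < k) (hst : s < t) {z w : ZMod (p.1 ^ k)}
    (h : (p.1 : ZMod (p.1 ^ k)) ^ s * z = (p.1 : ZMod (p.1 ^ k)) ^ t * w) : piH hk z = 0 := by
  obtain ⟨u, rfl⟩ := Nat.exists_eq_add_of_lt hst
  have h1 : (p.1 : ZMod (p.1 ^ k)) ^ s * (z - p.1 ^ (u + 1) * w) = 0 := by
    rw [mul_sub, h]
    ring
  rw [← ZMod.natCast_zmod_val (z - (p.1 : ZMod (p.1 ^ k)) ^ (u + 1) * w), ← Nat.cast_pow, ← Nat.cast_mul,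
    ZMod.natCast_eq_zero_iff] at h1
  have h2 := (pow_dvd_pow p.1 (Nat.succ_le_of_lt hs)).trans h1
  rw [pow_succ, Nat.mul_dvd_mul_iff_left (pow_pos p.2.pos s), ← ZMod.natCast_eq_zero_iff,
    ← map_natCast (piH hk), ZMod.natCast_zmod_val, map_sub, map_mul, map_pow, map_natCast,
    ZMod.natCast_self, zero_pow (Nat.succ_ne_zero u), zero_mul, sub_zero] at h2
  exact h2

theorem coeff_ofL_map {A B : Type} [CommRing A] [CommRing B] (φ : A → B) (h0 : φ 0 = 0) (h : A[X])
    (i : ℕ) : (ofL ((toL h).map φ)).coeff i = φ (h.coeff i) := by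
  rw [coeff_ofL, ← getD_toL, ← h0, getD_map]

theorem coeff_red (h : (ZMod (p.1 ^ k))[X]) (i : ℕ) :
    (red h).coeff i = (((h.coeff i).val / p.1 ^ ex h : ℕ) : ZMod p.1) := by
  rw [red, coeff_ofL_map _ (by simp)]

theorem natDegree_red_le (h : (ZMod (p.1 ^ k))[X]) : (red h).natDegree ≤ h.natDegree :=
  natDegree_le_iff_coeff_eq_zero.2 fun i hi => by
    rw [coeff_red, coeff_eq_zero_of_natDegree_lt hi]
    simp

theorem decomp {h : (ZMod (p.1 ^ k))[X]} (h0 : h ≠ 0) : ∃ (hk : k ≠ 0) (G : (ZMod (p.1 ^ k))[X]),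
    ex h < k ∧ h = C ((p.1 : ZMod (p.1 ^ k)) ^ ex h) * G ∧ red h = G.map (piH hk) ∧ red h ≠ 0 := by
  classical
  have key : ∀ m, (∀ c ∈ toL h, m ∣ c.val) ↔ ∀ i, m ∣ (h.coeff i).val := fun m =>
    ⟨fun H i => by
      by_cases hi : i ≤ h.natDegree
      · exact H _ (mem_toL.2 ⟨i, hi, rfl⟩)
      · rw [coeff_eq_zero_of_natDegree_lt (not_le.1 hi), ZMod.val_zero]
        exact dvd_zero m,
    fun H c hc => by
      obtain ⟨i, -, rfl⟩ := mem_toL.1 hc
      exact H i⟩
  have top : ¬ ∀ i, p.1 ^ k ∣ (h.coeff i).val := fun H => h0 (by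
    ext i
    rw [coeff_zero, ← ZMod.val_eq_zero]
    exact Nat.eq_zero_of_dvd_of_lt (H i) (ZMod.val_lt _))
  have hk : k ≠ 0 := by
    rintro rfl
    exact top fun i => by simp
  have h1 : ex h < k ∧ (∀ i, p.1 ^ ex h ∣ (h.coeff i).val) ∧
      ¬ ∀ i, p.1 ^ (ex h + 1) ∣ (h.coeff i).val := by
    unfold ex
    cases e : (range k).find? _ with
    | none =>
      have := find?_eq_none.1 e (k - 1) (mem_range.2 (by omega))
      rw [decide_eq_true_eq, not_not, key, Nat.sub_add_cancel (by omega)] at this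
      exact absurd this top
    | some s =>
      obtain ⟨a1, a2, a3⟩ := find?_range_eq_some.1 e
      rw [decide_eq_true_eq, key] at a1
      refine ⟨mem_range.1 a2, ?_, a1⟩
      cases s with
      | zero => simp
      | succ s =>
        have := a3 s (Nat.lt_succ_self s)
        rwa [Bool.not_eq_true', decide_eq_false_iff_not, not_not, key] at this
  have cG : ∀ i, (ofL ((toL h).map fun c =>
      ((c.val / p.1 ^ ex h : ℕ) : ZMod (p.1 ^ k)))).coeff i =
      (((h.coeff i).val / p.1 ^ ex h : ℕ) : ZMod (p.1 ^ k)) := fun i => by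
    rw [coeff_ofL_map _ (by simp)]
  refine ⟨hk, ofL ((toL h).map fun c => ((c.val / p.1 ^ ex h : ℕ) : ZMod (p.1 ^ k))), h1.1, ?_, ?_,
    fun H => h1.2.2 fun i => ?_⟩
  · ext i
    rw [coeff_C_mul, cG, ← Nat.cast_pow, ← Nat.cast_mul, Nat.mul_div_cancel' (h1.2.1 i),
      ZMod.natCast_zmod_val]
  · ext i
    rw [coeff_map, cG, coeff_red, map_natCast]
  · have := coeff_red h i
    rw [H, coeff_zero, eq_comm, ZMod.natCast_eq_zero_iff] at this
    rw [← Nat.mul_div_cancel' (h1.2.1 i), pow_succ]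
    exact Nat.mul_dvd_mul_left _ this

theorem sh_succ (f : (ZMod (p.1 ^ k))[X]) (a j r : ℕ) : sh f (a + p.1 ^ j * r) (j + 1) =
    ((sh f a j).comp (X + C (r : ZMod (p.1 ^ k)))).comp (C (p.1 : ZMod (p.1 ^ k)) * X) := by
  rw [sh, sh, comp_assoc, comp_assoc]
  congr 1
  simp only [add_comp, mul_comp, C_comp, X_comp, Nat.cast_add, Nat.cast_mul, Nat.cast_pow, C_add,
    C_mul, C_pow, pow_comp]
  ring

theorem deg_child {f : (ZMod (p.1 ^ k))[X]} {a j : ℕ} (h0 : sh f a j ≠ 0) (r : ZMod p.1)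
    (h1 : sh f (a + p.1 ^ j * r.val) (j + 1) ≠ 0) :
    (red (sh f (a + p.1 ^ j * r.val) (j + 1))).natDegree ≤
      (red (sh f a j)).rootMultiplicity r := by
  obtain ⟨hk, G, -, a2, a3, a4⟩ := decomp h0
  obtain ⟨hk', G', b1, b2, b3, -⟩ := decomp h1
  set s := ex (sh f a j)
  set s' := ex (sh f (a + p.1 ^ j * r.val) (j + 1))
  set T := G.comp (X + C (r.val : ZMod (p.1 ^ k))) with hT
  have key : ∀ i, (p.1 : ZMod (p.1 ^ k)) ^ s' * G'.coeff i =
      (p.1 : ZMod (p.1 ^ k)) ^ (s + i) * T.coeff i := fun i => by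
    rw [← coeff_C_mul, ← b2, sh_succ, comp_C_mul_X_coeff, a2, mul_comp, C_comp, coeff_C_mul]
    ring
  have eT : T.map (piH hk) = (red (sh f a j)).comp (X + C r) := by
    rw [hT, map_comp, a3, Polynomial.map_add, map_X, map_C, map_natCast, ZMod.natCast_zmod_val]
  rw [rootMultiplicity_eq_natTrailingDegree, ← eT]
  have hne : piH hk (T.coeff (T.map (piH hk)).natTrailingDegree) ≠ 0 := by
    rw [← coeff_map, coeff_natTrailingDegree_ne_zero, eT]
    exact comp_X_add_C_ne_zero_iff.2 a4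
  have hs : s' ≤ s + (T.map (piH hk)).natTrailingDegree := by
    by_contra hc
    exact hne (cancel hk (by omega) (not_le.1 hc) (key _).symm)
  refine natDegree_le_iff_coeff_eq_zero.2 fun i hi => ?_
  rw [b3, coeff_map]
  exact cancel hk' b1 (by omega) (key i)

variable {R : Rt} {f : (ZMod (p.1 ^ k))[X]}

open Classical in
/-- the weight of a class -/
noncomputable def wt (f : (ZMod (p.1 ^ k))[X]) (j a : ℕ) : ℕ :=
  if sh f a j = 0 then 1 else (red (sh f a j)).natDegree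

theorem sum_mult (hR : R.Ok) {g : (ZMod p.1)[X]} (hg : g ≠ 0) :
    ((R ⟨p, g⟩).map fun r => g.rootMultiplicity r).sum ≤ g.natDegree := by
  classical
  rw [← sum_toFinset _ (hR ⟨p, g⟩).1]
  refine le_trans (Finset.sum_le_sum_of_subset (t := g.roots.toFinset) fun r hr => ?_) ?_
  · exact Multiset.mem_toFinset.2 ((mem_roots hg).2 ((hR ⟨p, g⟩).2.1 r (mem_toFinset.1 hr)))
  · simp only [← count_roots]
    rw [Multiset.toFinset_sum_count_eq]
    exact card_roots' g

theorem kids_le (hR : R.Ok) {a j : ℕ} (h0 : sh f a j ≠ 0) :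
    ((kids R f j a).map (wt f (j + 1))).sum ≤ wt f j a ∧ (kids R f j a).length ≤ wt f j a := by
  obtain ⟨-, -, -, -, -, a4⟩ := decomp h0
  have h1 := sum_mult hR a4
  have h2 : ∀ r ∈ R ⟨p, red (sh f a j)⟩, 1 ≤ (red (sh f a j)).rootMultiplicity r := fun r hr =>
    (rootMultiplicity_pos a4).2 ((hR ⟨p, _⟩).2.1 r hr)
  rw [kids, wt, if_neg h0, if_neg h0, map_map, length_map]
  refine ⟨le_trans (sum_le_sum fun r hr => ?_) h1, le_trans ?_ h1⟩
  · simp only [Function.comp, wt]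
    split_ifs with h3
    · exact h2 r hr
    · exact deg_child h0 r h3
  · refine le_trans (le_of_eq ?_) (sum_le_sum (f := fun _ => 1) h2)
    simp

open Classical in
theorem step_le (hR : R.Ok) (j : ℕ) (A : List ℕ) :
    (A.filter fun a => decide (sh f a j = 0)).length +
      ((A.flatMap (kids R f j)).map (wt f (j + 1))).sum ≤ (A.map (wt f j)).sum ∧
    (A.flatMap (kids R f j)).length ≤ (A.map (wt f j)).sum := by
  induction A with
  | nil => simp
  | cons a A ih =>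
    rw [flatMap_cons, map_append, sum_append, length_append, map_cons, sum_cons]
    by_cases h0 : sh f a j = 0
    · have e1 : kids R f j a = [] := if_pos h0
      have e2 : wt f j a = 1 := if_pos h0
      rw [filter_cons_of_pos (by simpa using h0), e1, e2, length_cons, map_nil, sum_nil, length_nil]
      omega
    · have := kids_le hR h0
      rw [filter_cons_of_neg (by simpa using h0)]
      omega

open Classical in
theorem count_le (hR : R.Ok) (j : ℕ) :
    ((range j).flatMap fun i => ((act R f i).filter fun a => decide (sh f a i = 0)).map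
      fun a => (a, i)).length + ((act R f j).map (wt f j)).sum ≤ max 1 f.natDegree ∧
    (act R f j).length ≤ max 1 f.natDegree := by
  induction j with
  | zero =>
    refine ⟨?_, le_max_left _ _⟩
    have e : sh f 0 0 = f := by simp [sh]
    have := natDegree_red_le f
    simp only [act, range_zero, flatMap_nil, length_nil, foldl_nil, map_cons, map_nil, sum_cons,
      sum_nil, wt, e]
    split_ifs <;> omega
  | succ j ih =>
    have := step_le (f := f) hR j (act R f j)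
    rw [range_succ, flatMap_append, length_append, flatMap_singleton, length_map, act_succ]
    omega

theorem mem_kids {a j b : ℕ} (h : b ∈ kids R f j a) (ha : a < p.1 ^ j) :
    sh f a j ≠ 0 ∧ b < p.1 ^ (j + 1) ∧ b % p.1 ^ j = a := by
  unfold kids at h
  split_ifs at h with h0
  · exact absurd h not_mem_nil
  · obtain ⟨r, -, rfl⟩ := mem_map.1 h
    refine ⟨h0, ?_, by rw [Nat.add_mul_mod_self_left, Nat.mod_eq_of_lt ha]⟩
    have h1 : r.val < p.1 := ZMod.val_lt r
    have := Nat.mul_le_mul_left (p.1 ^ j) (Nat.succ_le_of_lt h1)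
    rw [Nat.mul_succ] at this
    rw [pow_succ]
    omega

theorem act_lt (j : ℕ) : ∀ a ∈ act R f j, a < p.1 ^ j := by
  induction j with
  | zero => simp [act]
  | succ j ih =>
    intro b hb
    rw [act_succ] at hb
    obtain ⟨a, ha, h⟩ := mem_flatMap.1 hb
    exact (mem_kids h (ih a ha)).2.1

theorem act_anc {i j b : ℕ} (hb : b ∈ act R f j) (hij : i < j) : sh f (b % p.1 ^ i) i ≠ 0 := by
  induction j generalizing b with
  | zero => omega
  | succ j ih =>
    rw [act_succ] at hb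
    obtain ⟨a, ha, h⟩ := mem_flatMap.1 hb
    obtain ⟨h1, -, h2⟩ := mem_kids h (act_lt j a ha)
    rcases Nat.lt_succ_iff_lt_or_eq.1 hij with h3 | rfl
    · rw [← Nat.mod_mod_of_dvd b (pow_dvd_pow p.1 h3.le), h2]
      exact ih ha h3
    · rwa [h2]

theorem act_nodup (hR : R.Ok) (j : ℕ) : (act R f j).Nodup := by
  induction j with
  | zero => simp [act]
  | succ j ih =>
    rw [act_succ]
    refine nodup_flatMap.2 ⟨fun a _ => ?_, ih.imp_of_mem fun {a b} ha hb hab c h1 h2 => hab ?_⟩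
    · unfold kids
      split_ifs
      · exact nodup_nil
      · exact (hR _).1.map fun r r' e => ZMod.val_injective _
          (Nat.eq_of_mul_eq_mul_left (pow_pos p.2.pos j) (Nat.add_left_cancel e))
    · rw [← (mem_kids h1 (act_lt j a ha)).2.2, (mem_kids h2 (act_lt j b hb)).2.2]

theorem eval_sh (f : (ZMod (p.1 ^ k))[X]) (x j : ℕ) :
    (sh f (x % p.1 ^ j) j).eval ((x / p.1 ^ j : ℕ) : ZMod (p.1 ^ k)) = f.eval (x : ZMod _) := by
  rw [sh, eval_comp, eval_add, eval_mul, eval_C, eval_C, eval_X, ← Nat.cast_mul, ← Nat.cast_add,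
    Nat.mod_add_div]

theorem descend (hR : R.Ok) {x : ℕ} (hx : f.eval (x : ZMod _) = 0) (j : ℕ) :
    (∃ i < j, x % p.1 ^ i ∈ act R f i ∧ sh f (x % p.1 ^ i) i = 0) ∨ x % p.1 ^ j ∈ act R f j := by
  induction j with
  | zero => exact Or.inr (by simp [act, Nat.mod_one])
  | succ j ih =>
    rcases ih with ⟨i, hi, h⟩ | h
    · exact Or.inl ⟨i, by omega, h⟩
    · by_cases h0 : sh f (x % p.1 ^ j) j = 0
      · exact Or.inl ⟨j, by omega, h, h0⟩
      · obtain ⟨hk, G, a1, a2, a3, a4⟩ := decomp h0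
        have a5 := eval_sh f x j
        rw [hx, a2, eval_mul, eval_C] at a5
        have a6 := cancel hk a1 (Nat.lt_succ_self _) (w := 0) (by rw [a5, mul_zero])
        rw [← eval₂_at_apply, ← eval_map, ← a3, map_natCast] at a6
        rw [act_succ]
        refine Or.inr (mem_flatMap.2 ⟨_, h, ?_⟩)
        rw [kids, if_neg h0]
        exact mem_map.2 ⟨_, (hR ⟨p, _⟩).2.2 a4 _ a6, by rw [ZMod.val_natCast, Nat.mod_pow_succ]⟩

theorem mem_out {e : ℕ × ℕ} : e ∈ out R f ↔ e.2 ≤ k ∧ e.1 ∈ act R f e.2 ∧ sh f e.1 e.2 = 0 := by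
  simp only [out, mem_flatMap, mem_map, mem_filter, mem_range, decide_eq_true_eq]
  constructor
  · rintro ⟨j, h1, a, h2, rfl⟩
    exact ⟨by omega, h2⟩
  · rintro ⟨h1, h2⟩
    exact ⟨e.2, by omega, e.1, h2, rfl⟩

theorem out_spec (hR : R.Ok) : (out R f).length ≤ max 1 f.natDegree ∧
    (∀ e ∈ out R f, e.2 ≤ k ∧ e.1 < p.1 ^ e.2) ∧
    (out R f).Pairwise (fun e e' => ∀ x : ℕ, ¬ (x ≡ e.1 [MOD p.1 ^ e.2] ∧
      x ≡ e'.1 [MOD p.1 ^ e'.2])) ∧
    ∀ x : ℕ, f.eval (x : ZMod (p.1 ^ k)) = 0 ↔ ∃ e ∈ out R f, x ≡ e.1 [MOD p.1 ^ e.2] := by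
  refine ⟨le_trans (Nat.le_add_right _ _) (count_le hR (k + 1)).1,
    fun e he => ⟨(mem_out.1 he).1, act_lt _ _ (mem_out.1 he).2.1⟩, ?_, fun x => ⟨fun hx => ?_, ?_⟩⟩
  · refine pairwise_flatMap.2 ⟨fun j _ => pairwise_map.2 ?_, pairwise_lt_range.imp ?_⟩
    · refine ((act_nodup hR j).filter _).imp_of_mem ?_
      intro a b ha hb hab x hx
      exact hab ((hx.1.symm.trans hx.2).eq_of_lt_of_lt (act_lt j a (mem_filter.1 ha).1)
        (act_lt j b (mem_filter.1 hb).1))
    · intro i j hij e he e' he' x hx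
      obtain ⟨a, ha, rfl⟩ := mem_map.1 he
      obtain ⟨b, hb, rfl⟩ := mem_map.1 he'
      have h1 : b % p.1 ^ i = a := by
        rw [← Nat.mod_eq_of_lt (act_lt i a (mem_filter.1 ha).1)]
        exact ((hx.2.of_dvd (pow_dvd_pow p.1 hij.le)).symm.trans hx.1)
      exact act_anc (mem_filter.1 hb).1 hij (h1 ▸ of_decide_eq_true (mem_filter.1 ha).2)
  · rcases descend hR hx k with ⟨i, hi, h⟩ | h
    · exact ⟨(_, i), mem_out.2 ⟨hi.le, h⟩, (Nat.mod_modEq _ _).symm⟩
    · refine ⟨(_, k), mem_out.2 ⟨le_rfl, h, ?_⟩, (Nat.mod_modEq _ _).symm⟩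
      rw [sh, ZMod.natCast_self, map_zero, zero_mul, add_zero, comp_C, ZMod.natCast_mod, hx,
        map_zero]
  · rintro ⟨e, he, hx⟩
    obtain ⟨-, h1, h2⟩ := mem_out.1 he
    have h3 : x % p.1 ^ e.2 = e.1 := Eq.trans hx (Nat.mod_eq_of_lt (act_lt _ _ h1))
    rw [← eval_sh f x e.2, h3, h2, eval_zero]

/-! ### Polynomial time -/

section

variable {α : Type} [Enc α] {q : α → Pr} {n : α → ℕ} {g : ∀ a, (ZMod ((q a).1 ^ n a))[X]}

theorem dpt_sh {b j : α → ℕ} (hq : DPT q) (hn : DPT n) (hb : PBd n) (hg : DPT g) (h1 : DPT b)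
    (h2 : DPT j) (h3 : PBd j) : DPT fun a => sh (g a) (b a) (j a) := by
  unfold sh
  fun_prop

theorem dpt_red (hq : DPT q) (hn : DPT n) (hb : PBd n) (hg : DPT g) :
    DPT fun a => red (g a) := by
  have h1 : DPT fun a => ex (g a) := by
    unfold ex
    refine DPT.optGetD (DPT.find? (by fun_prop) (DPT.decide (DPr.not (DPr.forall_mem
      (by fun_prop) (by fun_prop))))) (by fun_prop)
  have h2 : PBd fun a => ex (g a) := hb.mono fun a => by
    unfold ex
    cases e : (range (n a)).find? _ with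
    | none => exact Nat.zero_le _
    | some s => exact (mem_range.1 (mem_of_find?_eq_some e)).le
  unfold red
  exact DPT.ofL (by fun_prop) (DPT.map (by fun_prop) (DPT.natCast (PTRing.zmod (by fun_prop))
    (DPT.natDiv (by fun_prop) (DPT.natPow (by fun_prop) (h1.comp DPT.id.sfst)
      (pbd_comp h2 DPT.id.sfst)))))

theorem dpt_kids (hR : R.Fast) {b j : α → ℕ} (hq : DPT q) (hn : DPT n) (hb : PBd n) (hg : DPT g)
    (h1 : DPT b) (h2 : DPT j) (h3 : PBd j) : DPT fun a => kids R (g a) (j a) (b a) := by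
  have h4 := dpt_sh hq hn hb hg h1 h2 h3
  have h5 : DPT fun a => R ⟨q a, red (sh (g a) (b a) (j a))⟩ :=
    DPT.comp hR (DPT.smk hq (dpt_red hq hn hb h4))
  unfold kids
  exact DPT.ite (DPr.eq h4 (by fun_prop)) DPT.nil (DPT.map h5 (DPT.natAdd (by fun_prop)
    (DPT.natMul (by fun_prop) (DPT.zmodVal (p := fun x : Σ a, _ => (q x.1).1) DPT.ssnd.val))))

theorem dpt_act (hR : R.Fast) (hR' : R.Ok) {j : α → ℕ} (hq : DPT q) (hn : DPT n) (hb : PBd n)
    (hg : DPT g) (h2 : DPT j) (h3 : PBd j) : DPT fun a => act R (g a) (j a) := by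
  refine DPT.foldl (by fun_prop) (by fun_prop) (DPT.flatMap (by fun_prop)
    (dpt_kids hR (by fun_prop) (by fun_prop) (by fun_prop) (by fun_prop) (by fun_prop)
      (by fun_prop) (by fun_prop)))
    (b := fun a => ((g a).natDegree + 1) * (2 * (j a * esize (q a) + 1) + 1)) (by fun_prop)
    fun a i => ?_
  rw [take_range]
  refine le_trans (esize_list_le (l := act R (g a) (min i (j a))) (B := j a * esize (q a) + 1)
    fun x hx => ?_) (Nat.mul_le_mul_right _ ((count_le hR' _).2.trans (by omega)))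
  refine (esize_nat_mono (act_lt _ x hx).le).trans ((esize_pow_le _ _).trans ?_)
  exact Nat.succ_le_succ (Nat.mul_le_mul_right _ (min_le_right _ _))

theorem dpt_out (hR : R.Fast) (hR' : R.Ok) (hq : DPT q) (hn : DPT n) (hb : PBd n) (hg : DPT g) :
    DPT fun a => out R (g a) := by
  unfold out
  refine DPT.flatMap (by fun_prop) (DPT.map (DPT.filter (dpt_act hR hR' (by fun_prop) (by fun_prop)
    (by fun_prop) (by fun_prop) (by fun_prop) (by fun_prop)) (DPT.decide (DPr.eq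
      (dpt_sh (by fun_prop) (by fun_prop) (by fun_prop) (by fun_prop) (by fun_prop) (by fun_prop)
        (by fun_prop)) (by fun_prop)))) (by fun_prop))

end

theorem lift_goal : ∃ F, PolyTime F ∧ ∀ (p k : ℕ), p.Prime → ∀ f : (ZMod (p ^ k))[X],
    ∃ L : List (ℕ × ℕ),
      F (pair (pair p.bits (List.replicate k true)) (nums (coeffs f))) =
        rows (L.map fun e => [e.1, e.2]) ∧ L.length ≤ max 1 f.natDegree ∧
      (∀ e ∈ L, e.2 ≤ k ∧ e.1 < p ^ e.2) ∧
      L.Pairwise (fun e e' => ∀ x : ℕ, ¬ (x ≡ e.1 [MOD p ^ e.2] ∧ x ≡ e'.1 [MOD p ^ e'.2])) ∧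
      ∀ x : ℕ, f.eval (x : ZMod (p ^ k)) = 0 ↔ ∃ e ∈ L, x ≡ e.1 [MOD p ^ e.2] := by
  obtain ⟨R, hR, hR'⟩ := exists_roots
  have h1 : PT ∅ fun x : Σ y : Pr × Un, (ZMod (y.1.1 ^ y.2.v))[X] => x.1.2 :=
    (DPT.snd DPT.id.sfst).toPT
  have h2 : DPT fun x : Σ y : Pr × Un, (ZMod (y.1.1 ^ y.2.v))[X] => out R x.2 :=
    dpt_out hR hR' (DPT.fst DPT.id.sfst) (DPT.ofPT (PT.unVal h1)) (PBd.unVal h1) DPT.ssnd
  obtain ⟨g, hg, h⟩ : DPT fun x : Σ y : Pr × Un, (ZMod (y.1.1 ^ y.2.v))[X] =>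
      (out R x.2).map fun e => [e.1, e.2] := by fun_prop
  refine ⟨g, polyTime_of hg, fun p k hp f => ⟨out R (p := ⟨p, hp⟩) f, ?_, out_spec hR'⟩⟩
  have : NeZero (p ^ k) := ⟨pow_ne_zero k hp.ne_zero⟩
  rw [pair_eq, pair_eq, nums_eq, rows_eq, enc_coeffs]
  exact h ⟨(⟨p, hp⟩, ⟨k⟩), f⟩

end Vale.Agent.N319P
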